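import Vale.Agent.P151.H990.TC
import Vale.Agent.P151.TC.H149.Cons

/-!
# The seam of the full answer

The quasi-triangle inequality for pairs of distinct large clusters and its consumer give the
statement `Seam`.
-/

set_option autoImplicit false

open Finset

namespace Vale.Agent.P151.FULL

open Vale.Agent.P151 Vale.Agent.P151.QP Vale.Agent.P151.R2.H279

/-- The inequality in the form used by the consumer. -/
theorem tcs (V : Type) [DecidableEq V] : TC.H149.TCS V := by
  refine ⟨10, by norm_num, fun p h0 h1 Λ n x y z => ?_⟩
  have h := H990.PD_triangle h0 h1 Λ n x y z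
  have e : (big n z : Finset (Sym2 V) → ℝ) = fun S => I1 (n ≤ csz S z) := by
    funext S
    by_cases hS : n ≤ csz S z
    · rw [I1_true hS]
      unfold big
      exact if_pos hS
    · rw [I1_false hS]
      unfold big
      exact if_neg hS
  rw [mul_comm, ← e] at h
  exact h

/-- **The seam.** -/
theorem seam : Seam := TC.H149.seam_of_tcs fun V _ => tcs V

end Vale.Agent.P151.FULL
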