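import Vale.Agent.P151.GB.Amen
import Vale.Agent.P151.H648.Main
import Vale.Agent.P151.QP.Final
import Vale.Agent.P151.QP.Drop
import Vale.Agent.P151.QP.Param

/-!
# The seam of the full answer

`Seam` is the only statement that is missing for the full answer to the question: on an amenable
quasi-transitive graph in the remaining growth window (faster than every polynomial, and at most
`exp (A (log n) ^ 2)` infinitely often) the tail of the cluster size has no jump at `p_c`.
`full_of_seam` derives the full answer from it.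
-/

set_option autoImplicit false
set_option linter.unusedSectionVars false

open Finset SimpleGraph Filter Topology

namespace Vale.Agent.P151.FULL

open Vale.Agent.P151 Vale.Agent.P151.QP Vale.Agent.P151.R2.H279 Vale.Agent.P151.H648
open MeasureTheory ProbabilityTheory unitInterval

/-- The remaining growth window: superpolynomial growth, and `|B(o, n)| ≤ exp (A (log n) ^ 2)` for
infinitely many `n`. -/
def InWindow {V : Type} [DecidableEq V] (G : SimpleGraph V) [G.LocallyFinite] : Prop :=
  (∀ (o : V) (D : ℕ), ∃ N : ℕ, ∀ n : ℕ, N ≤ n → n ^ D < (ballF G o n).card) ∧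
  ∀ o : V, ∃ A : ℝ, ∀ N : ℕ, ∃ n : ℕ, N ≤ n ∧
    ((ballF G o n).card : ℝ) ≤ Real.exp (A * Real.log n ^ 2)

/-- **The seam.** No jump at `p_c` in the remaining window. -/
def Seam : Prop :=
  ∀ (V : Type) (_ : DecidableEq V) (_ : Infinite V) (G : SimpleGraph V) (_ : G.LocallyFinite),
    G.Connected → ∀ R : Finset V, (∀ x : V, ∃ g : G ≃g G, g x ∈ R) → IsQuasiTransitive G →
    IsAmenable G → InWindow G → 0 < pc G → pc G < 1 →
    ∀ θ : ℝ, 0 < θ → (∀ (n : ℕ) (x : V), θ ≤ phiB G n x (pc G)) → False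

/-- The balls of `G` as finite sets. -/
theorem ball_eq {V : Type} [DecidableEq V] {G : SimpleGraph V} [G.LocallyFinite]
    (hG : G.Connected) (o : V) (n : ℕ) : {y | G.dist o y ≤ n} = (ballF G o n : Set V) := by
  ext y
  rw [Set.mem_ofPred_eq, Finset.mem_coe, mem_ballF_iff hG, SimpleGraph.dist_comm]

/-- From the finite tail to the infinite cluster. -/
theorem no_perc_of_no_jump {V : Type} [DecidableEq V] {G : SimpleGraph V} [G.LocallyFinite]
    (hG : G.Connected) (hQ : IsQuasiTransitive G) (hpc1 : pc G < 1)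
    (hno : ∀ θ : ℝ, 0 < θ → 0 < pc G → (∀ (n : ℕ) (x : V), θ ≤ phiB G n x (pc G)) → False)
    (p : I) (hp : (p : ℝ) = pc G) :
    setBernoulli G.edgeSet p (hasInfiniteCluster V) = 0 := by
  have hpc0 : 0 ≤ pc G := pc_nonneg G
  rcases hpc0.eq_or_lt with hz | hpos
  · exact no_infinite_zero G hG p (by rw [hp, ← hz])
  obtain ⟨R, hR⟩ := hQ
  have hR' : ∀ x : V, ∃ g : G ≃g G, g x ∈ R := by
    intro x
    obtain ⟨y, hy, φ, rfl⟩ := hR x
    exact ⟨φ.symm, by simpa using hy⟩
  apply no_infinite_of_phiB G hG p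
  intro x
  by_contra hcon
  push Not at hcon
  obtain ⟨θ, hθ, hθn⟩ := hcon
  obtain ⟨c', hc', _, hSF⟩ := SF_le_phi (G := G) hG hR hpos
  apply hno (c' * θ) (by positivity) hpos
  intro n y
  have h1 := hSF (pc G) le_rfl hpc1.le n y
  rw [phi_eq_phiB hG hpc0 hpc1.le] at h1
  refine le_trans ?_ h1
  apply mul_le_mul_of_nonneg_left _ hc'.le
  have h2 := phi_le_SF (G := G) hR hpc0 hpc1.le n x
  rw [phi_eq_phiB hG hpc0 hpc1.le] at h2
  refine le_trans ?_ h2
  have h3 := hθn n
  rw [hp] at h3
  exact h3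

/-- No percolation at `p_c`, given the seam. -/
theorem no_perc_of_seam (hS : Seam) {V : Type} {G : SimpleGraph V} [G.LocallyFinite] [Infinite V]
    (hG : G.Connected) (hqt : IsQuasiTransitive G) (hpc1 : pc G < 1)
    (p : unitInterval) (hp : (p : ℝ) = pc G) :
    setBernoulli G.edgeSet p (hasInfiniteCluster V) = 0 := by
  classical
  by_cases ham : IsAmenable G
  swap
  · exact NA.no_perc_of_nonamenable G hG hqt ham hpc1 p hp
  by_cases hw : ∃ (o : V) (D : ℕ), ∀ N : ℕ, ∃ n : ℕ, N ≤ n ∧ (ballF G o n).card ≤ n ^ D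
  · obtain ⟨o, D, h⟩ := hw
    have hw : ∃ᶠ n : ℕ in Filter.atTop, {y | G.dist o y ≤ n}.ncard ≤ n ^ D := by
      refine Filter.frequently_atTop.2 fun N => ?_
      obtain ⟨n, hn, h1⟩ := h N
      refine ⟨n, hn, ?_⟩
      rwa [ball_eq hG, Set.ncard_coe_finset]
    refine no_perc_class V G hG hpc1 ?_ p hp
    rcases GB.weak_class hG hqt o hw with h1 | h1
    · exact Or.inl h1
    · exact Or.inr (Or.inl h1)
  obtain ⟨R, hR⟩ := id hqt
  have hR' : ∀ x : V, ∃ g : G ≃g G, g x ∈ R := by
    intro x
    obtain ⟨y, hy, φ, rfl⟩ := hR x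
    exact ⟨φ.symm, by simpa using hy⟩
  by_cases hgrow : ∃ o : V, QP.Stmts.Growth G o
  · obtain ⟨o, hgrow⟩ := hgrow
    exact QP.amenable_case2 hG hqt hpc1 (QP.drop hG hR' ham) (QP.param hG hR' hgrow) p hp
  refine no_perc_of_no_jump hG hqt hpc1 (fun θ hθ hpos hθn => ?_) p hp
  refine hS V _ inferInstance G _ hG R hR' hqt ham ⟨?_, ?_⟩ hpos hpc1 θ hθ hθn
  · intro o D
    push Not at hw
    obtain ⟨N, hN⟩ := hw o D
    exact ⟨N, fun n hn => hN n hn⟩
  · intro o
    push Not at hgrow
    have h1 := hgrow o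
    unfold QP.Stmts.Growth at h1
    push Not at h1
    obtain ⟨A, hA⟩ := h1
    refine ⟨A, fun N => ?_⟩
    obtain ⟨n, hn, h2⟩ := hA N
    exact ⟨n, hn, h2.le⟩

/-- **The full answer, given the seam**: for every infinite, connected, locally finite,
quasi-transitive graph with `p_c < 1` there is almost surely no infinite open cluster at `p_c`;
more precisely, for every `p ≤ p_c` there is no infinite cluster and the percolation
probabilities are continuous at `p`; `p_c > 0` and `θ_x(p) ≥ c (p - p_c)`; on amenable graphs the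
percolation probabilities are continuous on `[0, 1]` and for `p > p_c` the infinite cluster is
unique. -/
theorem full_of_seam (hS : Seam) (V : Type) (G : SimpleGraph V) [G.LocallyFinite] [Infinite V]
    (hG : G.Connected) (hqt : IsQuasiTransitive G) (hpc1 : pc G < 1) :
    (∀ p : unitInterval, (p : ℝ) ≤ pc G →
        setBernoulli G.edgeSet p (hasInfiniteCluster V) = 0 ∧
        ∀ x : V, ContinuousAt (theta G x) p) ∧
      (0 < pc G ∧ ∀ x : V, ∃ c : ℝ, 0 < c ∧ ∀ p : unitInterval, pc G ≤ p →
        c * (p - pc G) ≤ theta G x p) ∧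
      (IsAmenable G → (∀ x : V, Continuous (theta G x)) ∧
        ∀ p : unitInterval, pc G < p →
          setBernoulli G.edgeSet p (uniqueInfiniteCluster V)ᶜ = 0) := by
  classical
  have hno := no_perc_of_seam hS hG hqt hpc1
  refine ⟨fun p hp => low hG hno p hp, high hG hqt, fun ham => ?_⟩
  have h3 := amen hG hqt ham hno
  exact ⟨h3.1, h3.2 inferInstance⟩

end Vale.Agent.P151.FULL
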